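import Vale.Agent.P166.Base
import Vale.Agent.P157.Defs

/-! Internal definitions: explicit tree formulas, truncated quadratics, systems with disorder. -/

namespace Vale.Agent.P166

open MeasureTheory ProbabilityTheory Real Finset Matrix Filter Topology
open Vale.Agent.P157 (Sys St γ GS s0 YY mm pp sh DirD pull mrg Rg Sp νB xB)

noncomputable section

/-! ### Paths and explicit formulas -/

/-- tree eigenvalues of the increments `v` -/
def thv (k : ℕ) (v : ℕ → ℝ) (j : ℕ) : ℝ := ∑ i ∈ Ico j k, ((i : ℝ) + 1) / k * v i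

/-- increments of a path -/
def inc (q : ℕ → ℝ) (j : ℕ) : ℝ := q (j + 1) - q j

/-- path of the increments `ρ` -/
def cum (ρ : ℕ → ℝ) (l : ℕ) : ℝ := ∑ j ∈ range l, ρ j

/-- a variance `t` at the single level `j0` -/
def one (j0 : ℕ) (t : ℝ) (j : ℕ) : ℝ := if j = j0 then t else 0

/-- the response of an overlap path to a field at level `j` -/
def tail (k : ℕ) (A : ℕ → ℝ) (j : ℕ) : ℝ := A k - (1 / (k : ℝ)) * ∑ l ∈ Ioo j k, A l

/-- level sum -/
def LS (k : ℕ) (f : ℕ → ℝ) : ℝ := ∑ j ∈ range k, (k : ℝ) / (j + 1) * (f j - f (j + 1))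

/-- monotone paths from `0` with end point at most `P` -/
def IsPath (k : ℕ) (P : ℝ) (A : ℕ → ℝ) : Prop := A 0 = 0 ∧ Monotone A ∧ A k ≤ P

/-- overlap path of a Gaussian tree field tilted by `exp (- s x ^ 2 / 2)` -/
def Tilt (k : ℕ) (s : ℝ) (A : ℕ → ℝ) (l : ℕ) : ℝ :=
  ∑ j ∈ range l, inc A j / ((1 + s * th k A j) * (1 + s * th k A (j + 1)))

/-- free energy of the weight `exp (- s x ^ 2 / 2)` in a tree field -/
def psi (k : ℕ) (s : ℝ) (v : ℕ → ℝ) : ℝ := -(1 / 2) * LS k fun j => log (1 + s * thv k v j)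

/-- variance of the induced field -/
def rhoT (k : ℕ) (s μ : ℝ) (v : ℕ → ℝ) (j : ℕ) : ℝ :=
  (s * μ) ^ 2 * v j / ((1 + s * thv k v j) * (1 + s * thv k v (j + 1)))

/-- free energy of one spin in a field with level variances `ρ` -/
def YI (k : ℕ) (ρ : ℕ → ℝ) : ℝ := (Sp xB).Yv k νB fun j _ => ρ j

/-- explicit value of the Gaussian tree -/
def TV {β : Type} [Fintype β] (k : ℕ) (s μ : β → ℝ) (v : ℕ → β → ℝ) (t : ℕ → ℝ) : ℝ :=
  ∑ b, (psi k (s b) (fun j => v j b) - s b * μ b ^ 2 / 2) +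
    YI k fun j => t j + ∑ b, rhoT k (s b) (μ b) (fun j => v j b) j

section Spec

variable {α : Type} [Fintype α]

def tauF (p e : α → ℝ) (x : ℝ) : ℝ := ∑ a, p a / (1 + e a * x)

def kapF (p e : α → ℝ) (x : ℝ) : ℝ := -(∑ a, p a * e a / (1 + e a * x)) / tauF p e x

/-- the spin overlap path predicted by the top overlap path `A` -/
def qA (k : ℕ) (p e : α → ℝ) (A : ℕ → ℝ) (l : ℕ) : ℝ := ∑ a, p a * Tilt k (e a) A l

/-- the cavity field predicted by the top overlap path `A` -/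
def rhoA (k : ℕ) (p e : α → ℝ) (A : ℕ → ℝ) (j : ℕ) : ℝ :=
  (k : ℝ) / (j + 1) * (kapF p e (th k A j) - kapF p e (th k A (j + 1)))

/-- the explicit part of the cavity increment -/
def CE (k : ℕ) (p e : α → ℝ) (a : α) (A : ℕ → ℝ) : ℝ :=
  -(1 / 2) * LS k (fun j => log (1 + e a * th k A j) + log (tauF p e (th k A j))) + kapF p e 0 / 2

/-- the quadratic cavity weight of a new spin `ε` -/
def Wq (ϖ e : α → ℝ) (a' : α) (o : α → ℝ) (ε : ℝ) : ℝ :=
  -(1 / 2) * ∑ a, e a * (o a + (ε - ∑ b, ϖ b * o b) * ϖ a) ^ 2 -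
    (1 / 2) * e a' * (∑ b, ϖ b * o b) ^ 2

/-- gaps to the top atom at strength `s` -/
def Atoms.e (Λ : Atoms α) (s : ℝ) (a : α) : ℝ := -(s * Λ.c a)

end Spec

/-! ### Truncated quadratics -/

def qq (s μ u : ℝ) : ℝ := -(s / 2) * (u - μ) ^ 2

def chi (κ t : ℝ) : ℝ := (1 / 2) * log (exp (2 * t) + exp (-2 * κ))

def sgm (κ t : ℝ) : ℝ := exp (2 * t) / (exp (2 * t) + exp (-2 * κ))

def tq (κ s μ u : ℝ) : ℝ := chi κ (qq s μ u)

def tq1 (κ s μ u : ℝ) : ℝ := -(sgm κ (qq s μ u) * (s * (u - μ)))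

def tq2 (κ s μ u : ℝ) : ℝ :=
  2 * sgm κ (qq s μ u) * (1 - sgm κ (qq s μ u)) * (s * (u - μ)) ^ 2 - s * sgm κ (qq s μ u)

/-- bound on the derivatives of the truncated quadratics -/
def KK (S κ : ℝ) : ℝ := 50 * (1 + S) ^ 2 * (1 + κ) ^ 2

/-- functions with bounded first derivative and bounded Lipschitz second derivative -/
structure Nc (f f1 f2 : ℝ → ℝ) (K : ℝ) : Prop where
  one_le : 1 ≤ K
  d1 : ∀ u, HasDerivAt f (f1 u) u
  d2 : ∀ u, HasDerivAt f1 (f2 u) u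
  b1 : ∀ u, |f1 u| ≤ K
  b2 : ∀ u, |f2 u| ≤ K
  lip : ∀ u u', |f2 u - f2 u'| ≤ K * |u - u'|

/-! ### Systems with disorder -/

section DSdef

variable {I D Cf : Type} [Fintype I] [MeasurableSpace D] [MeasurableSpace Cf]

/-- like `GS`, but the disorder is sampled at level `0` and the configuration at level `k` -/
def DS (k : ℕ) (I : Type) [Fintype I] (νD : Measure D) (ν : Measure Cf) :
    Sys (St I (D × Cf)) ((D × Cf) × (I → ℝ)) where
  μ := (νD.prod ν).prod (γ I)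
  a j s w := if j < k then ((if j = 0 then w.1.1 else s.1.1, s.1.2), Function.update s.2 j w.2)
    else if j = k then ((s.1.1, w.1.2), s.2) else s
  ζ j := min 1 (((j : ℝ) + 1) / k)
  ν s := ∑ j ∈ range k, ∑ i, |s.2 j i|
  n _ w := ∑ i, |w.2 i|

/-- linear Gaussian field with features `e` and variances `w` -/
def fld {C : Type} (k : ℕ) (e : I → C → ℝ) (w : ℕ → I → ℝ) (s : St I C) : ℝ :=
  ∑ j ∈ range k, ∑ i, √(w j i) * e i s.1 * s.2 j i

/-- conditional variance of `fld` -/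
def fvar {C : Type} (k : ℕ) (e : I → C → ℝ) (w : ℕ → I → ℝ) (c : C) : ℝ :=
  ∑ j ∈ range k, ∑ i, w j i * e i c ^ 2

/-- `H` does not use the Gaussian coordinates satisfying `p` -/
def Free {C : Type} (k : ℕ) (p : I → Prop) [DecidablePred p] (H : St I C → ℝ) : Prop :=
  ∀ s u, H (mrg k p s u) = H s

/-- bounded measurable functions -/
def BM {C : Type} [MeasurableSpace C] (g : C → ℝ) : Prop := Measurable g ∧ ∃ B, ∀ c, |g c| ≤ B

/-- change of variables between systems -/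
def dmap {I' D' Cf' : Type} (F : D' × (I' → ℝ) → D) (G : Cf' → Cf) (L : (I' → ℝ) → I → ℝ)
    (s : St I' (D' × Cf')) : St I (D × Cf) :=
  ((F (s.1.1, s.2 0), G s.1.2), fun j => L (s.2 j))

/-- admissible changes of variables -/
structure DHom {I' D' Cf' : Type} [Fintype I'] [MeasurableSpace D'] [MeasurableSpace Cf']
    (νD' : Measure D') (ν' : Measure Cf') (νD : Measure D) (ν : Measure Cf)
    (F : D' × (I' → ℝ) → D) (G : Cf' → Cf) (L : (I' → ℝ) → I → ℝ) : Prop where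
  mF : MeasurePreserving (fun z : D' × (I' → ℝ) => (F z, L z.2)) (νD'.prod (γ I')) (νD.prod (γ I))
  mG : MeasurePreserving G ν' ν
  L0 : L 0 = 0
  bd : ∃ C, ∀ z, ∑ i, |L z i| ≤ C * ∑ i, |z i|

variable [Nonempty D] [Nonempty Cf]

/-- free energy -/
def YD (k : ℕ) (νD : Measure D) (ν : Measure Cf) (H : St I (D × Cf) → ℝ) : ℝ :=
  (DS k I νD ν).X (k + 1) 0 H (s0 I (D × Cf))

/-- one replica law -/
def mD (k : ℕ) (νD : Measure D) (ν : Measure Cf) (H : St I (D × Cf) → ℝ) :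
    Measure (St I (D × Cf)) :=
  (DS k I νD ν).m (k + 1) 0 H (s0 I (D × Cf))

/-- law of two replicas sharing the levels below `l` -/
def pD (k : ℕ) (νD : Measure D) (ν : Measure Cf) (H : St I (D × Cf) → ℝ) (l : ℕ) :
    Measure (St I (D × Cf) × St I (D × Cf)) :=
  (DS k I νD ν).pr l (k + 1 - l) 0 H (s0 I (D × Cf))

/-- response of the two replica observable `G` at level `j` -/
def tl (k : ℕ) (νD : Measure D) (ν : Measure Cf) (H : St I (D × Cf) → ℝ) (j : ℕ)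
    (G : (D × Cf) → (D × Cf) → ℝ) : ℝ :=
  (∫ s, G s.1 s.1 ∂mD k νD ν H) - (1 / (k : ℝ)) * ∑ l ∈ Ioo j k, ∫ z, G z.1.1 z.2.1 ∂pD k νD ν H l

/-- synchronisation error of the observable `G` with respect to the path `A` -/
def serr (k : ℕ) (νD : Measure D) (ν : Measure Cf) (H : St I (D × Cf) → ℝ)
    (G : (D × Cf) → (D × Cf) → ℝ) (A : ℕ → ℝ) : ℝ :=
  (∫ s, |G s.1 s.1 - A k| ∂mD k νD ν H) +
    (1 / (k : ℝ)) * ∑ l ∈ Ioo 0 k, ∫ z, |G z.1.1 z.2.1 - A l| ∂pD k νD ν H l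

/-- the path of the mean values of `G` -/
def ovP (k : ℕ) (νD : Measure D) (ν : Measure Cf) (H : St I (D × Cf) → ℝ)
    (G : (D × Cf) → (D × Cf) → ℝ) (l : ℕ) : ℝ :=
  if l = 0 then 0 else if l < k then ∫ z, G z.1.1 z.2.1 ∂pD k νD ν H l
    else ∫ s, G s.1 s.1 ∂mD k νD ν H

/-- interpolation derivative for `H0` plus a ridge Hamiltonian -/
def GD {A : Type} [Fintype A] [DecidableEq A] (k : ℕ) (νD : Measure D) (ν : Measure Cf)
    (H0 : St I (D × Cf) → ℝ) (R : Rg I A (D × Cf)) (w w' : ℕ → I → ℝ) : ℝ :=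
  (1 / 2) * (∫ s, ∑ i, (∑ j ∈ range k, w' j i) * R.dg k w i s
      ∂mD k νD ν fun s => H0 s + R.Hv k w s) -
    (1 / (2 * (k : ℝ))) * ∑ l ∈ range k,
      ∫ z, ∑ i, (∑ j ∈ range l, w' j i) * (R.ψ k w i z.1 * R.ψ k w i z.2)
        ∂pD k νD ν (fun s => H0 s + R.Hv k w s) l

end DSdef

/-! ### The spin glass with fields -/

variable {ι : Type} [Fintype ι] [DecidableEq ι]

/-- rotation, spins and one auxiliary spin -/
abbrev CF (ι : Type) [Fintype ι] [DecidableEq ι] : Type := O ι × ((ι → Bool) × Bool)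

/-- states: fields on the spins, fields on the rotated coordinates, auxiliary coordinates `J` -/
abbrev AT (ι J : Type) [Fintype ι] [DecidableEq ι] : Type := St ((ι ⊕ ι) ⊕ J) (CF ι)

instance nB.prob : IsProbabilityMeasure νB := by unfold νB; infer_instance

/-- law of the spins -/
def nC (ι : Type) [Fintype ι] : Measure ((ι → Bool) × Bool) := (unif ι).prod νB

instance nC.prob : IsProbabilityMeasure (nC ι) := by unfold nC; infer_instance

instance O.ne : Nonempty (O ι) := ⟨1⟩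

instance O.polish : PolishSpace (O ι) :=
  have : PolishSpace (Matrix ι ι ℝ) := inferInstanceAs (PolishSpace (ι → ι → ℝ))
  IsClosed.polishSpace (s := ((Matrix.orthogonalGroup ι ℝ : Submonoid (Matrix ι ι ℝ)) :
    Set (Matrix ι ι ℝ))) (isCompact_iff_compactSpace.2 O.cs).isClosed

instance O.sb : StandardBorelSpace (O ι) := standardBorel_of_polish

/-- the ambient system -/
abbrev AS (k : ℕ) (ι J : Type) [Fintype ι] [DecidableEq ι] [Fintype J] :
    Sys (AT ι J) (CF ι × ((ι ⊕ ι) ⊕ J → ℝ)) :=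
  DS k ((ι ⊕ ι) ⊕ J) (hO ι) (nC ι)

abbrev YA {J : Type} [Fintype J] (k : ℕ) (H : AT ι J → ℝ) : ℝ := YD k (hO ι) (nC ι) H

abbrev mA {J : Type} [Fintype J] (k : ℕ) (H : AT ι J → ℝ) : Measure (AT ι J) :=
  mD k (hO ι) (nC ι) H

abbrev pA {J : Type} [Fintype J] (k : ℕ) (H : AT ι J → ℝ) (l : ℕ) : Measure (AT ι J × AT ι J) :=
  pD k (hO ι) (nC ι) H l

/-- rotated coordinates -/
def xs (c : CF ι) : ι → ℝ := xc c.1 c.2.1

/-- spins -/
def ss (c : CF ι) : ι → ℝ := spin c.2.1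

/-- the auxiliary spin -/
def es (c : CF ι) : ℝ := if c.2.2 then 1 else -1

/-- overlap of the rotated coordinates in `B` -/
def ovx (B : Finset ι) (c c' : CF ι) : ℝ := (∑ i ∈ B, xs c i * xs c' i) / B.card

/-- overlap of the spins -/
def ovs (c c' : CF ι) : ℝ := (∑ i, ss c i * ss c' i) / Fintype.card ι

/-- quadratic coefficients, variances of the fields on the spins and on the coordinates -/
structure Mdl (ι : Type) where
  c : ι → ℝ
  r : ℕ → ι → ℝ
  u : ℕ → ι → ℝ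

/-- features of the fields -/
def fx (ι J : Type) [Fintype ι] [DecidableEq ι] : (ι ⊕ ι) ⊕ J → CF ι → ℝ :=
  Sum.elim (Sum.elim (fun i c => ss c i) fun i c => xs c i) fun _ _ => 0

/-- variances of the fields -/
def Mdl.w (M : Mdl ι) (J : Type) (j : ℕ) : (ι ⊕ ι) ⊕ J → ℝ :=
  Sum.elim (Sum.elim (M.r j) (M.u j)) fun _ => 0

/-- the Hamiltonian -/
def Mdl.H (M : Mdl ι) (k : ℕ) (J : Type) [Fintype J] (s : AT ι J) : ℝ :=
  (1 / 2) * ∑ i, M.c i * xs s.1 i ^ 2 + fld k (fx ι J) (M.w J) s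

/-- nonnegative variances -/
def Mdl.NN (M : Mdl ι) (k : ℕ) : Prop := ∀ j < k, ∀ i, 0 ≤ M.r j i ∧ 0 ≤ M.u j i

/-- the model is isotropic in the block `B` -/
def Mdl.Iso (M : Mdl ι) (B : Finset ι) : Prop :=
  ∀ i ∈ B, ∀ i' ∈ B, M.c i = M.c i' ∧ ∀ j, M.u j i = M.u j i'

def YM (k : ℕ) (M : Mdl ι) : ℝ := YA k (M.H k Empty)

def Mdl.tl (M : Mdl ι) (k j : ℕ) (G : CF ι → CF ι → ℝ) : ℝ :=
  P166.tl k (hO ι) (nC ι) (M.H k Empty) j G

def Mdl.serr (M : Mdl ι) (k : ℕ) (G : CF ι → CF ι → ℝ) (A : ℕ → ℝ) : ℝ :=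
  P166.serr k (hO ι) (nC ι) (M.H k Empty) G A

def Mdl.ovP (M : Mdl ι) (k : ℕ) (G : CF ι → CF ι → ℝ) : ℕ → ℝ :=
  P166.ovP k (hO ι) (nC ι) (M.H k Empty) G

/-- rotation of the disorder and of the fields on the coordinates -/
def rotA {J : Type} (S : O ι) (s : AT ι J) : AT ι J :=
  ((S * s.1.1, s.1.2), fun j => Sum.elim (Sum.elim (fun i => s.2 j (.inl (.inl i)))
    ((S : Matrix ι ι ℝ) *ᵥ fun i => s.2 j (.inl (.inr i)))) fun a => s.2 j (.inr a))

/-- `S` only moves the coordinates in `B` -/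
def FixO (B : Finset ι) (S : O ι) : Prop :=
  ∀ i ∉ B, ∀ i', (S : Matrix ι ι ℝ) i i' = if i = i' then 1 else 0

/-- invariance under the rotations of the block `B` -/
def RotB {J : Type} (B : Finset ι) (H : AT ι J → ℝ) : Prop :=
  ∀ S, FixO B S → ∀ s, H (rotA S s) = H s

/-- orthonormal families supported in `B` -/
def Frame {β : Type} [DecidableEq β] (B : Finset ι) (g : β → ι → ℝ) : Prop :=
  (∀ b, ∀ i ∉ B, g b i = 0) ∧ ∀ b b', g b ⬝ᵥ g b' = if b = b' then 1 else 0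

/-- the block of a label -/
def blkL {α : Type} [DecidableEq α] (ℓ : ι → α) (a : α) : Finset ι := univ.filter fun i => ℓ i = a

/-- frequencies of the labels are close to `p` -/
def Near {α : Type} [DecidableEq α] (p : α → ℝ) (δ : ℝ) (ℓ : ι → α) : Prop :=
  ∀ a, |((blkL ℓ a).card : ℝ) / Fintype.card ι - p a| ≤ δ

/-- the labelled model: gaps `e`, shift `b` and field amplitudes `y` on the top block -/
def mkM {α : Type} [DecidableEq α] (top : α) (ℓ : ι → α) (e : α → ℝ) (b : ℝ) (y : ℕ → ℝ)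
    (r : ℕ → ι → ℝ) : Mdl ι where
  c i := if ℓ i = top then -b else -e (ℓ i)
  r := r
  u j i := if ℓ i = top then y j ^ 2 else 0

/-- the coordinates in `S` are relabelled to the top -/
def upL {α : Type} (top : α) (ℓ : ι → α) (S : Finset ι) (i : ι) : α := if i ∈ S then top else ℓ i

/-- the relabelled model with the gaps put back on the coordinates in `S` -/
def midM {α : Type} [DecidableEq α] (top : α) (ℓ : ι → α) (e : α → ℝ) (b : ℝ) (y : ℕ → ℝ)
    (r : ℕ → ι → ℝ) (S : Finset ι) : Mdl ι where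
  c i := (mkM top (upL top ℓ S) e b y r).c i - if i ∈ S then e (ℓ i) else 0
  r := r
  u := (mkM top (upL top ℓ S) e b y r).u

/-- one more site with label `a` and field variances `t` -/
def newM {α : Type} [DecidableEq α] (top : α) (ℓ : ι → α) (e : α → ℝ) (b : ℝ) (y : ℕ → ℝ)
    (r : ℕ → ι → ℝ) (a : α) (t : ℕ → ℝ) : Mdl (Option ι) :=
  mkM top (fun i => i.elim a ℓ) e b y fun j i => i.elim (t j) (r j)

/-- small perturbation parameters -/
def Small (k : ℕ) (δ b : ℝ) (y : ℕ → ℝ) : Prop := 0 ≤ b ∧ b ≤ δ ∧ ∑ j ∈ range k, y j ^ 2 ≤ δ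

/-- the box of the perturbation parameters -/
def Box (η b : ℝ) (y : ℕ → ℝ) : Prop :=
  b ∈ Set.Icc (η / 2) (2 * η) ∧ ∀ j, y j ∈ Set.Icc (η / 2) (2 * η)

/-- the penalty -/
def pen (k : ℕ) (η b : ℝ) (y : ℕ → ℝ) : ℝ := (b - η) ^ 2 + ∑ j ∈ range k, (y j - η) ^ 2

/-! ### Cavity systems -/

section Cav

variable {β : Type} [Fintype β]

/-- argument of the cavity function `b` -/
def UC (k : ℕ) (g : β → ι → ℝ) (n : ℕ → β → ℝ) (b : β) (s : AT ι (β ⊕ Unit)) : ℝ :=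
  es s.1 * (g b ⬝ᵥ xs s.1 + ∑ j ∈ range k, √(n j b) * s.2 j (.inr (.inl b)))

/-- the field on the auxiliary spin -/
def HE (k : ℕ) (t : ℕ → ℝ) (s : AT ι (β ⊕ Unit)) : ℝ :=
  es s.1 * ∑ j ∈ range k, √(t j) * s.2 j (.inr (.inr ()))

/-- the cavity Hamiltonian -/
def HC (k : ℕ) (M : Mdl ι) (F : β → ℝ → ℝ) (g : β → ι → ℝ) (n : ℕ → β → ℝ) (t : ℕ → ℝ)
    (s : AT ι (β ⊕ Unit)) : ℝ :=
  M.H k (β ⊕ Unit) s + HE k t s + ∑ b, F b (UC k g n b s)

def YC (k : ℕ) (M : Mdl ι) (F : β → ℝ → ℝ) (g : β → ι → ℝ) (n : ℕ → β → ℝ) (t : ℕ → ℝ) : ℝ :=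
  YA k (HC k M F g n t)

/-- the tree Hamiltonian -/
def HT (k : ℕ) (F : β → ℝ → ℝ) (v : ℕ → β → ℝ) (t : ℕ → ℝ) (s : St (β ⊕ Unit) Bool) : ℝ :=
  xB s.1 () * ∑ j ∈ range k, √(t j) * s.2 j (.inr ()) +
    ∑ b, F b (xB s.1 () * ∑ j ∈ range k, √(v j b) * s.2 j (.inl b))

def YT (k : ℕ) (F : β → ℝ → ℝ) (v : ℕ → β → ℝ) (t : ℕ → ℝ) : ℝ := YY k νB (HT k F v t)

/-- Gaussian directions in the block `B` -/
def gG (B : Finset ι) (z : β × ι → ℝ) (b : β) (i : ι) : ℝ :=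
  if i ∈ B then z (b, i) / √(B.card) else 0

/-- the cavity free energy averaged over Gaussian directions -/
def YG (k : ℕ) (M : Mdl ι) (B : Finset ι) (F : β → ℝ → ℝ) (n : ℕ → β → ℝ) (t : ℕ → ℝ) : ℝ :=
  k * log (∫ z, exp (YC k M F (gG B z) n t / k) ∂γ (β × ι))

end Cav

end

end Vale.Agent.P166
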